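import Mathlib

set_option autoImplicit false

namespace Vale.Agent.Results.P344.TwoNMinusTwo

/-- A gate of a linear circuit: `u + v`, `u - v` or `l * u`, where the operands are given by their
positions in the list of previously computed values. -/
inductive Gate : Type
  | add (a b : ℕ) : Gate
  | sub (a b : ℕ) : Gate
  | scale (l : ℂ) (a : ℕ) : Gate

/-- The linear form (as a coefficient vector) computed by a gate from the list of previously
computed forms. A position outside the list reads as the constant `0`. -/
noncomputable def evalGate {n : ℕ} (vals : List (Fin n → ℂ)) : Gate → (Fin n → ℂ)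
  | Gate.add a b => vals.getD a 0 + vals.getD b 0
  | Gate.sub a b => vals.getD a 0 - vals.getD b 0
  | Gate.scale l a => l • vals.getD a 0

/-- Run a circuit (a list of gates, in order): every gate appends its value to the list of
computed values. -/
noncomputable def run {n : ℕ} : List (Fin n → ℂ) → List Gate → List (Fin n → ℂ)
  | vals, [] => vals
  | vals, g :: gs => run (vals ++ [evalGate vals g]) gs

/-- The values available before any gate: the constant `0` and the inputs `x_0, ..., x_{n-1}`. -/
noncomputable def start (n : ℕ) : List (Fin n → ℂ) :=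
  0 :: (List.finRange n).map (fun k => Pi.single k 1)

/-- Row `j` of the unnormalized discrete Fourier matrix `F_n`. -/
noncomputable def dftRow (n : ℕ) (j : Fin n) : Fin n → ℂ :=
  fun k => (Complex.exp (2 * Real.pi * Complex.I / n)) ^ (j.val * k.val)

/-- all forms in the list have their support inside one class of the labelling `c` -/
def Good {n : ℕ} (c : Fin n → Fin n) (vals : List (Fin n → ℂ)) : Prop :=
  ∀ w ∈ vals, ∀ i j, w i ≠ 0 → w j ≠ 0 → c i = c j

theorem getD_cases {n : ℕ} (vals : List (Fin n → ℂ)) (a : ℕ) :
    vals.getD a 0 = 0 ∨ vals.getD a 0 ∈ vals := by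
  by_cases h : a < vals.length
  · right
    rw [List.getD_eq_getElem _ _ h]
    exact List.getElem_mem h
  · left
    exact List.getD_eq_default _ _ (not_lt.mp h)

theorem good_operand {n : ℕ} {c : Fin n → Fin n} {vals : List (Fin n → ℂ)} (h : Good c vals)
    (a : ℕ) : ∀ i j, (vals.getD a 0) i ≠ 0 → (vals.getD a 0) j ≠ 0 → c i = c j := by
  rcases getD_cases vals a with h0 | hm
  · intro i j hi
    rw [h0] at hi
    exact absurd rfl hi
  · exact h _ hm

theorem merge {n : ℕ} {c : Fin n → Fin n} {vals : List (Fin n → ℂ)} (h : Good c vals)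
    (u v z : Fin n → ℂ)
    (hu : ∀ i j, u i ≠ 0 → u j ≠ 0 → c i = c j)
    (hv : ∀ i j, v i ≠ 0 → v j ≠ 0 → c i = c j)
    (hz : ∀ i, z i ≠ 0 → u i ≠ 0 ∨ v i ≠ 0) :
    ∃ c' : Fin n → Fin n, Good c' (vals ++ [z]) ∧
      (Finset.univ.image c).card ≤ (Finset.univ.image c').card + 1 := by
  classical
  by_cases hu0 : ∃ i0, u i0 ≠ 0
  · by_cases hv0 : ∃ j0, v j0 ≠ 0
    · obtain ⟨i0, hi0⟩ := hu0
      obtain ⟨j0, hj0⟩ := hv0
      refine ⟨fun i => if c i = c i0 then c j0 else c i, ?_, ?_⟩
      · intro w hw i j hi hj
        rcases List.mem_append.mp hw with hw | hw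
        · have := h w hw i j hi hj
          simp only [this]
        · have hwz : w = z := by simpa using hw
          subst hwz
          have key : ∀ i, w i ≠ 0 → (if c i = c i0 then c j0 else c i) = c j0 := by
            intro i hi
            rcases hz i hi with h1 | h1
            · rw [if_pos (hu i i0 h1 hi0)]
            · have : c i = c j0 := hv i j0 h1 hj0
              split_ifs
              · rfl
              · exact this
          show (if c i = c i0 then c j0 else c i) = (if c j = c i0 then c j0 else c j)
          rw [key i hi, key j hj]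
      · have hsub : Finset.univ.image c ⊆
            insert (c i0) (Finset.univ.image (fun i => if c i = c i0 then c j0 else c i)) := by
          intro x hx
          obtain ⟨i, _, rfl⟩ := Finset.mem_image.mp hx
          by_cases hc : c i = c i0
          · rw [hc]; exact Finset.mem_insert_self _ _
          · apply Finset.mem_insert_of_mem
            apply Finset.mem_image.mpr
            exact ⟨i, Finset.mem_univ _, by rw [if_neg hc]⟩
        exact (Finset.card_le_card hsub).trans (Finset.card_insert_le _ _)
    · refine ⟨c, ?_, Nat.le_succ _⟩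
      intro w hw i j hi hj
      rcases List.mem_append.mp hw with hw | hw
      · exact h w hw i j hi hj
      · have hwz : w = z := by simpa using hw
        subst hwz
        have hi' : u i ≠ 0 := by
          rcases hz i hi with h1 | h1
          · exact h1
          · exact absurd ⟨i, h1⟩ hv0
        have hj' : u j ≠ 0 := by
          rcases hz j hj with h1 | h1
          · exact h1
          · exact absurd ⟨j, h1⟩ hv0
        exact hu i j hi' hj'
  · refine ⟨c, ?_, Nat.le_succ _⟩
    intro w hw i j hi hj
    rcases List.mem_append.mp hw with hw | hw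
    · exact h w hw i j hi hj
    · have hwz : w = z := by simpa using hw
      subst hwz
      have hi' : v i ≠ 0 := by
        rcases hz i hi with h1 | h1
        · exact absurd ⟨i, h1⟩ hu0
        · exact h1
      have hj' : v j ≠ 0 := by
        rcases hz j hj with h1 | h1
        · exact absurd ⟨j, h1⟩ hu0
        · exact h1
      exact hv i j hi' hj'

theorem step {n : ℕ} {c : Fin n → Fin n} {vals : List (Fin n → ℂ)} (h : Good c vals) (g : Gate) :
    ∃ c' : Fin n → Fin n, Good c' (vals ++ [evalGate vals g]) ∧
      (Finset.univ.image c).card ≤ (Finset.univ.image c').card + 1 := by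
  cases g with
  | add a b =>
    apply merge h (vals.getD a 0) (vals.getD b 0) _ (good_operand h a) (good_operand h b)
    intro i hi
    by_contra hcon
    push Not at hcon
    apply hi
    show (vals.getD a 0) i + (vals.getD b 0) i = 0
    rw [hcon.1, hcon.2, add_zero]
  | sub a b =>
    apply merge h (vals.getD a 0) (vals.getD b 0) _ (good_operand h a) (good_operand h b)
    intro i hi
    by_contra hcon
    push Not at hcon
    apply hi
    show (vals.getD a 0) i - (vals.getD b 0) i = 0
    rw [hcon.1, hcon.2, sub_zero]
  | scale l a =>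
    apply merge h (vals.getD a 0) (vals.getD a 0) _ (good_operand h a) (good_operand h a)
    intro i hi
    by_contra hcon
    push Not at hcon
    apply hi
    show l * (vals.getD a 0) i = 0
    rw [hcon.1, mul_zero]

/-- The invariant carried along a run: `t` is the number of gates used so far. -/
def Inv {n : ℕ} (vals : List (Fin n → ℂ)) (t : ℕ) : Prop :=
  (∃ c : Fin n → Fin n, Good c vals ∧ n ≤ (Finset.univ.image c).card + t) ∧
  ∀ s : Finset (Fin n → ℂ), (∀ w ∈ s, w ∈ vals ∧ ∀ i, w i ≠ 0) → s.Nonempty → s.card + n ≤ t + 2

theorem full_bound {n : ℕ} {vals : List (Fin n → ℂ)} {t : ℕ}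
    (h : ∃ c : Fin n → Fin n, Good c vals ∧ n ≤ (Finset.univ.image c).card + t)
    (w : Fin n → ℂ) (hw : w ∈ vals) (hfull : ∀ i, w i ≠ 0) : n ≤ 1 + t := by
  obtain ⟨c, hc, hn⟩ := h
  have : (Finset.univ.image c).card ≤ 1 := by
    apply Finset.card_le_one.mpr
    intro a ha b hb
    obtain ⟨i, _, rfl⟩ := Finset.mem_image.mp ha
    obtain ⟨j, _, rfl⟩ := Finset.mem_image.mp hb
    exact hc w hw i j (hfull i) (hfull j)
  omega

theorem inv_step {n : ℕ} {vals : List (Fin n → ℂ)} {t : ℕ} (h : Inv vals t) (g : Gate) :
    Inv (vals ++ [evalGate vals g]) (t + 1) := by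
  classical
  obtain ⟨⟨c, hc, hn⟩, hs⟩ := h
  obtain ⟨c', hc', hcard⟩ := step hc g
  have hfirst : ∃ c : Fin n → Fin n, Good c (vals ++ [evalGate vals g]) ∧
      n ≤ (Finset.univ.image c).card + (t + 1) := ⟨c', hc', by omega⟩
  refine ⟨hfirst, ?_⟩
  intro s hsmem hne
  by_cases he : (s.erase (evalGate vals g)).Nonempty
  · have h1 := hs (s.erase (evalGate vals g)) (by
      intro w hw
      obtain ⟨hwne, hws⟩ := Finset.mem_erase.mp hw
      obtain ⟨hwv, hwf⟩ := hsmem w hws
      refine ⟨?_, hwf⟩
      rcases List.mem_append.mp hwv with h2 | h2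
      · exact h2
      · exact absurd (by simpa using h2) hwne) he
    have h2 : s.card ≤ (s.erase (evalGate vals g)).card + 1 := by
      have := Finset.pred_card_le_card_erase (s := s) (a := evalGate vals g)
      omega
    omega
  · rw [Finset.not_nonempty_iff_eq_empty] at he
    have h2 : s.card ≤ 1 := by
      have := Finset.pred_card_le_card_erase (s := s) (a := evalGate vals g)
      rw [he] at this
      simp at this
      omega
    obtain ⟨w, hw⟩ := hne
    obtain ⟨hwv, hwf⟩ := hsmem w hw
    have := full_bound hfirst w hwv hwf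
    omega

theorem inv_run {n : ℕ} (gs : List Gate) : ∀ (vals : List (Fin n → ℂ)) (t : ℕ), Inv vals t →
    Inv (run vals gs) (t + gs.length) := by
  induction gs with
  | nil => intro vals t h; simpa [run] using h
  | cons g gs ih =>
    intro vals t h
    have := ih _ _ (inv_step h g)
    simp only [run, List.length_cons]
    have e : t + (gs.length + 1) = t + 1 + gs.length := by omega
    rw [e]
    exact this

theorem inv_start {n : ℕ} (hn : 2 ≤ n) : Inv (start n) 0 := by
  classical
  have hgood : Good (fun i : Fin n => i) (start n) := by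
    intro w hw i j hi hj
    simp only [start, List.mem_cons, List.mem_map, List.mem_finRange, true_and] at hw
    rcases hw with rfl | ⟨k, rfl⟩
    · exact absurd rfl hi
    · have h1 : i = k := by
        by_contra hne
        exact hi (Pi.single_eq_of_ne hne _)
      have h2 : j = k := by
        by_contra hne
        exact hj (Pi.single_eq_of_ne hne _)
      rw [h1, h2]
  have hex : ∃ c : Fin n → Fin n, Good c (start n) ∧ n ≤ (Finset.univ.image c).card + 0 := by
    refine ⟨fun i => i, hgood, ?_⟩
    simp
  refine ⟨hex, ?_⟩
  intro s hs hne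
  obtain ⟨w, hw⟩ := hne
  obtain ⟨hwv, hwf⟩ := hs w hw
  have := full_bound hex w hwv hwf
  omega

theorem dftRow_ne_zero (n : ℕ) (j k : Fin n) : dftRow n j k ≠ 0 := by
  unfold dftRow
  exact pow_ne_zero _ (Complex.exp_ne_zero _)

theorem dftRow_injective {n : ℕ} (hn : 2 ≤ n) : Function.Injective (dftRow n) := by
  intro j j' h
  have h1 := congrFun h ⟨1, by omega⟩
  simp only [dftRow, mul_one] at h1
  have hprim := Complex.isPrimitiveRoot_exp n (by omega)
  exact Fin.ext (hprim.pow_inj j.isLt j'.isLt h1)

/-- Every linear circuit (gates `u + v`, `u - v`, `l * u` with arbitrary complex `l`, starting from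
the constant `0` and the inputs) that computes all `n` rows of the discrete Fourier matrix `F_n`
has at least `2 n - 2` gates. -/
theorem result (n : ℕ) (hn : 2 ≤ n) (gs : List Gate)
    (hout : ∀ j : Fin n, dftRow n j ∈ run (start n) gs) : 2 * n - 2 ≤ gs.length := by
  classical
  have hinv := inv_run gs (start n) 0 (inv_start hn)
  have h := hinv.2 (Finset.univ.image (dftRow n)) (by
    intro w hw
    obtain ⟨j, _, rfl⟩ := Finset.mem_image.mp hw
    exact ⟨hout j, dftRow_ne_zero n j⟩) (by
    refine ⟨dftRow n ⟨0, by omega⟩, Finset.mem_image.mpr ⟨_, Finset.mem_univ _, rfl⟩⟩)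
  rw [Finset.card_image_of_injective _ (dftRow_injective hn)] at h
  simp at h
  omega

end Vale.Agent.Results.P344.TwoNMinusTwo
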